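import Vale.Agent.P181.S6.SpecG

/-!
# P181, TS: star systems with codes of order `t` (columns of polylogarithmic length)

`R = g * r` classes of letters in `g` blocks of `r` classes (block of the class `i`: `i / r`).
The point: `x_u(i) = [i = cl u] + t * y_u(i)` for the rows `i < R` (`y_u(i)` only for `i ≠ cl u` in
the block of `cl u`), generic entries in the other rows.
-/

set_option autoImplicit false

namespace Vale.Agent.P181.TS

open Finset Vale.Agent.P181 Vale.Agent.P181.H280 Vale.Agent.P181.H463 Vale.Agent.P181.H59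

/-- the letters of the class `i` -/
def cls {b R : ℕ} (cl : Fin b → Fin R) (i : Fin R) : Finset (Fin b) :=
  univ.filter fun u => cl u = i

/-- the classes missed by `A` -/
def miss {b R : ℕ} (cl : Fin b → Fin R) (A : Finset (Fin b)) : Finset (Fin R) :=
  univ.filter fun i => ∀ u ∈ A, cl u ≠ i

/-- the letters of `A` in the block `β` -/
def inBlk {b R : ℕ} (r : ℕ) (cl : Fin b → Fin R) (A : Finset (Fin b)) (β : ℕ) : Finset (Fin b) :=
  A.filter fun u => (cl u : ℕ) / r = β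

/-- the leading coefficient of the minor `A` is not zero: in every block either no class is missed,
or exactly one class `k` is missed, the block has exactly `r` letters, and two letters of the same
class have different codes at `k`. -/
def Reg {b R : ℕ} (r : ℕ) (cl : Fin b → Fin R) (y : Fin b → Fin R → Bool)
    (A : Finset (Fin b)) : Prop :=
  ∀ β : ℕ, (∀ i : Fin R, (i : ℕ) / r = β → i ∉ miss cl A) ∨
    ∃ k : Fin R, (k : ℕ) / r = β ∧ (∀ i : Fin R, (i : ℕ) / r = β → (i ∈ miss cl A ↔ i = k)) ∧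
      (inBlk r cl A β).card = r ∧
      ∃ u ∈ A, ∃ v ∈ A, u ≠ v ∧ cl u = cl v ∧ (cl u : ℕ) / r = β ∧ y u k ≠ y v k

/-- the leading coefficient of the minor `A` is zero: some block has exactly `r` letters, two of
them of the same class and with the same codes at all missed classes of the block. -/
def Sing {b R : ℕ} (r : ℕ) (cl : Fin b → Fin R) (y : Fin b → Fin R → Bool)
    (A : Finset (Fin b)) : Prop :=
  ∃ u ∈ A, ∃ v ∈ A, u ≠ v ∧ cl u = cl v ∧ (inBlk r cl A ((cl u : ℕ) / r)).card = r ∧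
    ∀ k ∈ miss cl A, (k : ℕ) / r = (cl u : ℕ) / r → y u k = y v k

/-- **the design with codes** -/
def TDes (b N : ℕ) (len : Fin N → ℕ) : Prop :=
  ∃ (r g : ℕ) (cl : Fin b → Fin (g * r)) (y : Fin b → Fin (g * r) → Bool), 0 < r ∧
    (∀ c, g * r ≤ len c) ∧
    ∀ gd : Fin b → ℕ, (∀ p q, gd p ≤ gd q + 1) → ∑ p, gd p = ∑ c, len c →
    ∃ A : Fin N → Finset (Fin b), (∀ c, (A c).card = len c) ∧ (∀ p, dgr A p = gd p) ∧
      (∀ c, Reg r cl y (A c)) ∧
      ∀ ρ : Equiv.Perm (Fin b), ρ ≠ 1 →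
        (∑ c, (miss cl (A c)).card < ∑ c, (miss cl ((A c).image ρ)).card) ∨
        ((∑ c, (miss cl (A c)).card ≤ ∑ c, (miss cl ((A c).image ρ)).card) ∧
          ∃ c, Sing r cl y ((A c).image ρ))

/-! ### The orbit inequality -/

/-- the configuration over `ℂ[t]` (`G`: the entries of the rows `≥ R`) -/
noncomputable def pt {b R : ℕ} (r : ℕ) (cl : Fin b → Fin R) (y : Fin b → Fin R → Bool)
    (G : Fin b → ℕ → ℂ) (n : ℕ) (u : Fin b) (i : Fin n) : Polynomial ℂ :=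
  if h : (i : ℕ) < R then
    (if cl u = ⟨i, h⟩ then 1 else 0) +
      (if cl u ≠ ⟨i, h⟩ ∧ (i : ℕ) / r = (cl u : ℕ) / r ∧ y u ⟨i, h⟩ = true then Polynomial.X
        else 0)
  else Polynomial.C (G u i)

/-- the minor of the first `l` rows at the letters `e` -/
noncomputable def mn {b R : ℕ} (r : ℕ) (cl : Fin b → Fin R) (y : Fin b → Fin R → Bool)
    (G : Fin b → ℕ → ℂ) (l : ℕ) (e : Fin l → Fin b) : Polynomial ℂ :=
  Matrix.det (Matrix.of fun a s : Fin l => pt r cl y G l (e a) s)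

/-- **[TS-ORD1]** -/
def Ord1 : Prop := ∀ (b R r l : ℕ) (cl : Fin b → Fin R) (y : Fin b → Fin R → Bool)
  (G : Fin b → ℕ → ℂ) (e : Fin l → Fin b), R ≤ l → Function.Injective e →
  Polynomial.X ^ (miss cl (univ.image e)).card ∣ mn r cl y G l e

/-- **[TS-ORD2]** (the block of `r` rows is supported on `r` letters, two of them agree) -/
def Ord2 : Prop := ∀ (b r g l : ℕ) (cl : Fin b → Fin (g * r)) (y : Fin b → Fin (g * r) → Bool)
  (G : Fin b → ℕ → ℂ) (e : Fin l → Fin b), 0 < r → g * r ≤ l → Function.Injective e →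
  Sing r cl y (univ.image e) →
  Polynomial.X ^ ((miss cl (univ.image e)).card + 1) ∣ mn r cl y G l e

/-- **[TS-ORD3]** finitely many regular minors have non-zero leading coefficient for one `G` -/
def Ord3 : Prop := ∀ (b r g : ℕ) (cl : Fin b → Fin (g * r)) (y : Fin b → Fin (g * r) → Bool)
  (ι : Type) [Finite ι] (l : ι → ℕ) (e : (c : ι) → Fin (l c) → Fin b), 0 < r →
  (∀ c, g * r ≤ l c) → (∀ c, Function.Injective (e c)) →
  (∀ c, Reg r cl y (univ.image (e c))) →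
  ∃ G : Fin b → ℕ → ℂ, ∀ c,
    (mn r cl y G (l c) (e c)).coeff (miss cl (univ.image (e c))).card ≠ 0

/-- **[TS-MAT]** the orbit inequality (twin of `S6.MatG`) -/
def MatT : Prop :=
  ∀ (n k b N : ℕ) (len : Fin N → ℕ) (lam η : Fin n → ℕ), 0 < b → TDes b N len →
    (∀ c, len c ≤ n) → Antitone η →
    (∀ i : Fin n, (univ.filter fun c => (i : ℕ) < len c).card + η i = lam i) →
    ∑ i, lam i = k * b →
    gt n b η ≤ ((∑ i, η i) + b - 1).choose (b - 1) * (b.factorial * plethMult b k n lam)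

/-- **[TS-MAT]** as a step -/
def MatTStep : Prop := Ord1 → Ord2 → Ord3 → MatT

/-! ### The tests inside a class -/

/-- **[TS-TEST]** (bits `k` with `2 ^ (k + 1) ≤ s`, `u < s / 2`, and `u < τ` with `τ` odd; zigzags
between the two colour classes) -/
def TestStmt : Prop := ∀ s : ℕ, 64 ≤ s →
  ∃ (y : Fin s → Fin (Nat.log 2 s + 2) → Bool)
    (E : Fin (Nat.log 2 s + 2) → Finset (Fin s × Fin s)),
    (∀ k, ∀ e ∈ E k, y e.1 k ≠ y e.2 k) ∧ (∀ k, (E k).card ≤ 2 * s) ∧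
    (∀ k u, ((E k).filter fun e => e.1 = u ∨ e.2 = u).card ≤ 10) ∧
    ∀ ρ : Equiv.Perm (Fin s), (∀ k, ∀ e ∈ E k, y (ρ e.1) k ≠ y (ρ e.2) k) → ρ = 1

/-- **[TS-SZ]** classes of strictly increasing sizes -/
def SzStmt : Prop := ∀ b R : ℕ, 0 < R → 2000 * R ^ 2 ≤ b →
  ∃ (cl : Fin b → Fin R) (e : ℕ), 1000 * R ≤ e ∧ R * e ≤ b ∧ b ≤ R * (e + R) ∧
    (∀ i, e ≤ (cls cl i).card ∧ (cls cl i).card ≤ e + R) ∧
    ∀ i j : Fin R, i < j → (cls cl i).card < (cls cl j).card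

/-- a test `(i, k, u, v)`: `u, v` in the class `i`, the class `k` is missed -/
abbrev Tst (b R : ℕ) : Type := Fin R × Fin R × Fin b × Fin b

/-- a system of tests; at most `τ` in a block, at most `z` for every missed class -/
def TSys {b R : ℕ} (r τ z : ℕ) (cl : Fin b → Fin R) (y : Fin b → Fin R → Bool)
    (T : Finset (Tst b R)) : Prop :=
  (∀ t ∈ T, cl t.2.2.1 = t.1 ∧ cl t.2.2.2 = t.1 ∧ t.2.2.1 ≠ t.2.2.2 ∧ t.2.1 ≠ t.1 ∧
    (t.2.1 : ℕ) / r = (t.1 : ℕ) / r ∧ y t.2.2.1 t.2.1 ≠ y t.2.2.2 t.2.1) ∧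
  (∀ β : ℕ, (T.filter fun t => (t.1 : ℕ) / r = β).card ≤ τ) ∧
  (∀ k, (T.filter fun t => t.2.1 = k).card ≤ z) ∧
  (∀ u, (T.filter fun t => t.2.2.1 = u ∨ t.2.2.2 = u).card ≤ 10 * r) ∧
  ∀ ρ : Equiv.Perm (Fin b), (∀ u, cl (ρ u) = cl u) →
    (∀ t ∈ T, y (ρ t.2.2.1) t.2.1 ≠ y (ρ t.2.2.2) t.2.1) → ρ = 1

/-- **[TS-SYS]** from [TS-TEST] in every class (the colouring `κ` of the class `i` is the `κ`-th
class of the block different from `i`) -/
def SysStmt : Prop := ∀ (b r g e : ℕ) (cl : Fin b → Fin (g * r)), Nat.log 2 b + 4 ≤ r → 64 ≤ e →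
  (∀ i, e ≤ (cls cl i).card ∧ (cls cl i).card ≤ e + g * r) →
  ∃ (y : Fin b → Fin (g * r) → Bool) (T : Finset (Tst b (g * r))),
    TSys r (2 * r ^ 2 * (e + g * r)) (2 * r * (e + g * r)) cl y T

/-! ### The columns -/

/-- **[TS-D]** the test columns: two passes; in the first one the blocks `β < h` are tested and the
classes of the other half get the additional letters. -/
def DColStmt : Prop := ∀ (b r h e τ z : ℕ) (cl : Fin b → Fin (2 * h * r))
  (y : Fin b → Fin (2 * h * r) → Bool) (T : Finset (Tst b (2 * h * r))), 0 < r → 0 < h →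
  1000 * (2 * h * r) ≤ e → (∀ i, e ≤ (cls cl i).card ∧ (cls cl i).card ≤ e + 2 * h * r) →
  TSys r τ z cl y T →
  ∀ len : Fin (2 * τ) → ℕ, (∀ d, 2 * h * r ≤ len d ∧ len d ≤ 128 * (2 * h * r)) →
  ∃ B : Fin (2 * τ) → Finset (Fin b), (∀ d, (B d).card = len d) ∧ (∀ d, Reg r cl y (B d)) ∧
    (∀ t ∈ T, ∃ d, t.2.2.1 ∈ B d ∧ t.2.2.2 ∈ B d ∧
      (inBlk r cl (B d) ((t.1 : ℕ) / r)).card = r ∧
      ∀ k ∈ miss cl (B d), (k : ℕ) / r = (t.1 : ℕ) / r → k = t.2.1) ∧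
    (∀ u, dgr B u ≤ 600 * (τ / e + 1) + 10 * r) ∧
    ∀ k, (univ.filter fun d => k ∈ miss cl (B d)).card ≤ z

/-- **[TS-U]** the random columns -/
def UStmt : Prop := ∃ C : ℕ, 1 ≤ C ∧ ∀ (b h e NU : ℕ) (cl : Fin b → Fin (2 * h)), 0 < h →
  1000 * (2 * h) ≤ e → 10 ^ 6 ≤ e →
  (∀ i, e ≤ (cls cl i).card ∧ (cls cl i).card ≤ e + 2 * h) →
  (C : ℝ) * e * Real.log (b + 1) ≤ NU →
  ∀ len : Fin NU → ℕ, (∀ c, 2 * h ≤ len c ∧ len c ≤ 128 * (2 * h)) →
  ∃ A : Fin NU → Finset (Fin b), (∀ c, (A c).card = len c) ∧ (∀ c, miss cl (A c) = ∅) ∧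
    (∀ p, e * dgr A p ≤ C * NU) ∧
    ∀ (T : Finset (Fin b)) (i : Fin (2 * h)), T.card ≤ e + 2 * h →
      (∀ j, (T ∩ cls cl j).card ≤ (T ∩ cls cl i).card) →
      (T \ cls cl i).card ≤ 2 * (cls cl i \ T).card →
      NU * (cls cl i \ T).card ≤ C * e * (univ.filter fun c => Disjoint (A c) T).card

/-- **[TS-GEN]** independent samples, counted version (weights `2 ^ (-number of hits)`) -/
def GenCount : Prop := ∀ (N : ℕ) (Ω : Fin N → Type) [∀ c, Fintype (Ω c)] [∀ c, Nonempty (Ω c)]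
  [∀ c, DecidableEq (Ω c)] (ι κ : Type) [Fintype ι] [Fintype κ] (E : (c : Fin N) → ι → Finset (Ω c))
  (θ : ι → ℝ) (F : (c : Fin N) → κ → Finset (Ω c)) (q : ℝ) (P : ℕ), 0 ≤ q → (∀ i, 0 ≤ θ i) →
  (∀ i, θ i ≤ ∑ c, ((E c i).card : ℝ) / Fintype.card (Ω c)) →
  (∀ c k, ((F c k).card : ℝ) ≤ q * Fintype.card (Ω c)) →
  (∑ i, Real.exp (-(θ i / 4))) + Fintype.card κ * (3 * N * q / (P + 1)) ^ (P + 1) < 1 →
  ∃ ω : (c : Fin N) → Ω c, (∀ i, θ i ≤ 8 * ((univ.filter fun c => ω c ∈ E c i).card : ℝ)) ∧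
    ∀ k, (univ.filter fun c => ω c ∈ F c k).card ≤ P

/-- **[TS-ACC]** damage against savings -/
def AccStmt : Prop := ∀ (b R e C NU ND dD z : ℕ) (cl : Fin b → Fin R) (A : Fin NU → Finset (Fin b))
  (B : Fin ND → Finset (Fin b)), 0 < R → 1000 * R ≤ e → 1 ≤ C →
  (∀ i, e ≤ (cls cl i).card ∧ (cls cl i).card ≤ e + R) →
  (∀ i j : Fin R, i < j → (cls cl i).card < (cls cl j).card) →
  (∀ (T : Finset (Fin b)) (i : Fin R), T.card ≤ e + R →
    (∀ j, (T ∩ cls cl j).card ≤ (T ∩ cls cl i).card) →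
    (T \ cls cl i).card ≤ 2 * (cls cl i \ T).card →
    NU * (cls cl i \ T).card ≤ C * e * (univ.filter fun c => Disjoint (A c) T).card) →
  (∀ u, dgr B u ≤ dD) → (∀ k, (univ.filter fun d => k ∈ miss cl (B d)).card ≤ z) →
  2 * C * z + 4 * C * e * dD < NU →
  ∀ ρ : Equiv.Perm (Fin b), (∀ u, cl (ρ u) = cl u) ∨
    ∑ d, (miss cl (B d)).card <
      ∑ d, (miss cl ((B d).image ρ)).card + ∑ c, (miss cl ((A c).image ρ)).card

/-- **[TS-F]** transversals for the free columns -/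
def FreeStmt : Prop := ∀ (b R e NF : ℕ) (cl : Fin b → Fin R), 0 < e →
  (∀ i, e ≤ (cls cl i).card) →
  ∃ G : Fin NF → Finset (Fin b), (∀ c, (G c).card = R) ∧ (∀ c, miss cl (G c) = ∅) ∧
    ∀ p, dgr G p ≤ NF / e + 1

/-- **[TS-DES]** the design for columns of length between `log b` and `b ^ (1 / 3)` -/
def DesShort : Prop := ∃ b0 : ℕ, ∀ b m N : ℕ, b0 ≤ b → 256 * (Nat.log 2 b + 4) ≤ m → m ^ 3 ≤ b →
  ((b : ℝ) / m) * Real.log b ^ 4 ≤ N →
  ∀ len : Fin N → ℕ, (∀ c, m ≤ len c ∧ len c ≤ 2 * m) → TDes b N len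

/-- **[TS-DES]** as a step: `r = log₂ b + 4`, `g = 2 * (m / (64 * r))` -/
def DesStep : Prop := SzStmt → SysStmt → DColStmt → UStmt → AccStmt → FreeStmt → H59.FillStmt →
  DesShort

/-! ### The lower bound -/

/-- **(LBX)** = `S6.LB9` with `(log a) ^ C ≤ l` instead of `a ^ ε ≤ l`. -/
def LBX : Prop :=
  ∀ δ : ℝ, 0 < δ → ∃ C : ℕ, ∀ᶠ a : ℕ in Filter.atTop, ∀ (k b n l : ℕ)
    (lam : Fin n → ℕ), n ≤ a → (1 + δ) * a ≤ b → b ≤ a ^ 2 → k ≤ a → Antitone lam →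
    ∑ i, lam i = k * b → Real.log a ^ C ≤ l → l ≤ n →
    (b : ℝ) * Real.log a ^ C ≤ l * T4.ex lam (l - 1) →
    (gt n a lam : ℝ) * Real.exp (2 * b) ≤ plethMult b k n lam

/-- **[TS-LBX]** (twin of `H310.lbStmt`; for `m ^ 3 > b` use `DesAll` with `ε = 1 / 3`) -/
def LbxStep : Prop := S6.DesAll → S6.MatG → DesShort → MatT → LBX

end Vale.Agent.P181.TS
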